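import Vale.Agent.P177.Bd4.B24
import Vale.Agent.P177.Bd4.B23

/-!
Serre's positivity conjecture.
-/

namespace Vale.Agent.Results.P177.FullPositivity

open CategoryTheory TensorProduct

universe u

/-- Serre's intersection multiplicity `∑_{i ≤ d} (-1)^i length Tor_i^R(M, N)`. -/
noncomputable def chi (R : Type u) [CommRing R] (d : ℕ) (M N : Type u) [AddCommGroup M]
    [Module R M] [AddCommGroup N] [Module R N] : ℤ :=
  ∑ i ∈ Finset.range (d + 1), (-1 : ℤ) ^ i * ((Module.length R
    (((Tor (ModuleCat.{u} R) i).obj (ModuleCat.of R M)).obj (ModuleCat.of R N))).toNat : ℤ)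

/-- Serre's positivity conjecture: let `R` be a regular local ring of dimension `d` and let `M`, `N`
be finitely generated `R`-modules such that `M ⊗ N` has finite length. Then the modules
`Tor_i(M, N)` have finite length and vanish for `i > d`, Serre's intersection multiplicity is
nonnegative, and it is positive if `dim M + dim N = d`. -/
theorem result (R : Type u) [CommRing R] [IsRegularLocalRing R] (d : ℕ) (hd : ringKrullDim R = d)
    (M N : Type u) [AddCommGroup M] [Module R M] [Module.Finite R M]
    [AddCommGroup N] [Module R N] [Module.Finite R N]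
    (hlen : Module.length R (M ⊗[R] N) ≠ ⊤) :
    (∀ i : ℕ, Module.length R
      (((Tor (ModuleCat.{u} R) i).obj (ModuleCat.of R M)).obj (ModuleCat.of R N)) ≠ ⊤) ∧
    (∀ i : ℕ, d < i → Subsingleton
      (((Tor (ModuleCat.{u} R) i).obj (ModuleCat.of R M)).obj (ModuleCat.of R N))) ∧
    0 ≤ chi R d M N ∧
    (Module.supportDim R M + Module.supportDim R N = d → 0 < chi R d M N) :=
  Vale.Agent.P177.serre_final Vale.Agent.P177.flagStmt R d hd M N hlen

end Vale.Agent.Results.P177.FullPositivity
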